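import Crest.Agent.R182.ENG.Pull

/-! R182/CLX/Det (helper94): an occurring linear part is invertible -/

set_option autoImplicit false
set_option linter.unusedVariables false
set_option linter.unusedSectionVars false
open Set Filter Topology MeasureTheory ProbabilityTheory Matrix Crest.GroupTheory
open scoped Pointwise commutatorElement ENNReal

noncomputable section
namespace Crest.Agent.R182

namespace Model
variable {h k : ℕ} (M : Model h k)

theorem dtn_reg {w : ℝ} {y : M.G} (hy : y ∈ M.exp '' M.Box w * M.ballR (w / 2)) (hw : 0 ≤ w) : y ∈ M.Reg 1 1 (1 / 2) w := by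
  obtain ⟨_, ⟨X, hX, rfl⟩, s, hs, rfl⟩ := hy
  refine Set.mul_mem_mul ⟨X, by rwa [one_smul], rfl⟩ ?_
  have := M.mul_mem_Adm' (M.AdmC_subset_Adm _ _ (M.be_one le_rfl)) hs
  rw [one_mul] at this
  exact M.Adm_mono (by linarith) (by linarith) this

/-- the target points over the box have large volume -/
theorem dtn_vol (K : ℝ) : ∃ D w₀ : ℝ, 1 ≤ D ∧ ∀ (f : M.QP K) (p : M.G) (w : ℝ), w₀ ≤ w →
    M.vol0 w ≤ ENNReal.ofReal D * volume {z | p⁻¹ * f.ψ z ∈ M.exp '' M.Box w * M.ballR (w / 4)} := by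
  obtain ⟨D, w₀, hD, hv⟩ := M.vol_region_le 1 1 (1 / 8) (by norm_num)
  obtain ⟨B, hB, hi⟩ := M.vol_le_image K 0
  refine ⟨D * B, max w₀ (24 * K), one_le_mul_of_one_le_of_one_le hD hB, fun f p w hw => ?_⟩
  have hK := f.one_le
  have h1 : 24 * K ≤ w := (le_max_right _ _).trans hw
  have h2 := hv w ((le_max_left _ _).trans hw) 1 (M.one_mem_ballCR (by linarith))
  rw [one_smul, one_mul] at h2
  rw [ENNReal.ofReal_mul (by linarith), mul_assoc]
  refine h2.trans (mul_le_mul_right ?_ _)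
  rw [← measure_preimage_mul volume p⁻¹]
  refine (measure_mono fun y hy => ?_).trans ((hi f ((p⁻¹ * ·) ⁻¹' (M.exp '' M.Box w * {1} * M.ballCR (1 / 8 * w)))).trans
    (mul_le_mul_right (measure_mono ?_) _))
  · exact ⟨y, hy, 1, M.one_mem_ballR le_rfl, mul_one y⟩
  · rintro _ ⟨_, ⟨y, ⟨_, ⟨x, hx, _, rfl, rfl⟩, b, hb, he⟩, rfl⟩, s, hs, rfl⟩
    have he : x * 1 * b = p⁻¹ * y := he
    have h3 := f.lψ (f.φ y) (f.φ y * s)
    rw [inv_mul_cancel_left] at h3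
    have h4 : K * (M.len s : ℝ) ≤ K * 1 := mul_le_mul_of_nonneg_left hs (by linarith)
    have h5 : (f.ψ (f.φ y))⁻¹ * f.ψ (f.φ y * s) ∈ M.ballR (2 * K) := h3.trans (by linarith)
    have h6 : y⁻¹ * f.ψ (f.φ y) ∈ M.ballR K := f.left y
    refine ⟨x, hx, _, M.ballR_mono (by linarith) (M.mul_mem_ballR (M.ballCR_subset_ballR _ hb) (M.mul_mem_ballR h6 h5)), ?_⟩
    show x * (b * _) = p⁻¹ * f.ψ (f.φ y * s)
    rw [← mul_assoc, ← mul_one x, he]
    group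

theorem dtn_good {K e : ℝ} (f : M.QP K) (L : Mat k) {κ : Fin k → ℝ} {z c : M.G}
    (h0 : ‖M.er f.φ L (f.ψ z) - κ‖ ≤ e) (h1 : ‖M.er f.φ L (f.ψ (z * c)) - κ‖ ≤ e) :
    ‖L *ᵥ M.cc f.ψ c z - M.chi c‖ ≤ 2 * e + 2 * K := by
  have e2 : L *ᵥ M.cc f.ψ c z - M.chi c = (M.er f.φ L (f.ψ z) - κ) - (M.er f.φ L (f.ψ (z * c)) - κ) +
      (M.chi ((z * c)⁻¹ * f.φ (f.ψ (z * c))) - M.chi (z⁻¹ * f.φ (f.ψ z))) := by
    simp only [er, cc, chi_mul, chi_inv, Matrix.mulVec_sub]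
    abel
  have a1 := (M.norm_chi_le _).trans (f.right (z * c))
  have a2 := (M.norm_chi_le _).trans (f.right z)
  rw [e2]
  refine (norm_add_le _ _).trans ((add_le_add (norm_sub_le _ _) (norm_sub_le _ _)).trans ?_)
  linarith

theorem det_ne_of_occ {K : ℝ} {L : Mat k} (hL : ∀ t ε w₀ : ℝ, 0 < ε → ∃ (f : M.QP K) (p : M.G) (w : ℝ) (κ : Fin k → ℝ),
    w₀ ≤ w ∧ M.PF f.φ p w L κ t ε) : L.det ≠ 0 := by
  intro hdet
  obtain ⟨a, ha, haL⟩ := Matrix.exists_vecMul_eq_zero_iff.2 hdet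
  obtain ⟨i, hi⟩ := Function.ne_iff.1 ha
  have hi : 0 < |a i| := abs_pos.2 hi
  have hK : 1 ≤ K := by
    obtain ⟨f, -⟩ := hL 1 1 1 one_pos
    exact f.one_le
  have hΛ : Mb L (∑ i, ∑ j, |L i j|) := fun i j =>
    (Finset.single_le_sum (f := fun j => |L i j|) (fun _ _ => abs_nonneg _) (Finset.mem_univ j)).trans
      (Finset.single_le_sum (f := fun i => ∑ j, |L i j|) (fun _ _ => Finset.sum_nonneg fun _ _ => abs_nonneg _) (Finset.mem_univ i))
  obtain ⟨D, w₁, hD, hv⟩ := M.dtn_vol K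
  obtain ⟨A, hA⟩ : ∃ A : ℝ, A = nm a * k + 1 := ⟨_, rfl⟩
  have hA0 : 0 < A := by have := nm_nonneg a; rw [hA]; positivity
  obtain ⟨ε₂, hε₂⟩ : ∃ e : ℝ, e = |a i| / (64 * K * A) := ⟨_, rfl⟩
  have h2 : 0 < ε₂ := by rw [hε₂]; positivity
  obtain ⟨t, ε, w₀, -, hε, hp⟩ := M.pull_vol K 1 _ 1 (1 / 2) ε₂ (1 / (4 * D)) (by norm_num) h2 (by positivity)
  obtain ⟨f, p, w, κ, hw, hP⟩ := hL t ε (max (max w₀ w₁) (max (16 * K) (K / ε₂))) hε
  simp only [max_le_iff] at hw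
  obtain ⟨⟨w0, w1⟩, w2, w3⟩ := hw
  rw [div_le_iff₀' h2] at w3
  have hw0 : 0 < w := by linarith
  obtain ⟨j, hj⟩ : ∃ j : ℕ, j = ⌈w / (8 * K)⌉₊ := ⟨_, rfl⟩
  have j1 : w / (8 * K) ≤ j := hj ▸ Nat.le_ceil _
  have j2 : (j : ℝ) ≤ w / (8 * K) + 1 := hj ▸ (Nat.ceil_lt_add_one (by positivity)).le
  rw [div_le_iff₀ (by positivity)] at j1
  have j3 : K * j ≤ w / 8 + K := by
    refine (mul_le_mul_of_nonneg_left j2 (by linarith)).trans_eq ?_
    field_simp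
  have hg : (M.len (M.gen i ^ j) : ℝ) ≤ j := by
    have := M.ballCR_subset_ballR _ (M.pow_mem_ballCR (M.gen_mem_ballCR i) j)
    rwa [mul_one] at this
  have hsub : {z | p⁻¹ * f.ψ z ∈ M.exp '' M.Box w * M.ballR (w / 4)} ⊆
      {z | p⁻¹ * f.ψ (z * 1) ∈ M.Reg 1 1 (1 / 2) w ∧ ε₂ * w < ‖M.er f.φ L (f.ψ (z * 1)) - κ‖} ∪
      {z | p⁻¹ * f.ψ (z * M.gen i ^ j) ∈ M.Reg 1 1 (1 / 2) w ∧ ε₂ * w < ‖M.er f.φ L (f.ψ (z * M.gen i ^ j)) - κ‖} := by
    rintro z ⟨x, hx, s, hs, he⟩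
    have he : x * s = p⁻¹ * f.ψ z := he
    by_contra hc
    simp only [mem_union, mem_setOf_eq, not_or, not_and, not_lt, mul_one] at hc
    have g0 := hc.1 (M.dtn_reg ⟨x, hx, s, M.ballR_mono (by linarith) hs, he⟩ hw0.le)
    have h3 := f.lψ z (z * M.gen i ^ j)
    rw [inv_mul_cancel_left] at h3
    have h4 : K * (M.len (M.gen i ^ j) : ℝ) ≤ K * j := mul_le_mul_of_nonneg_left hg (by linarith)
    have h5 : (f.ψ z)⁻¹ * f.ψ (z * M.gen i ^ j) ∈ M.ballR (w / 4) := h3.trans (by linarith)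
    have g1 := hc.2 (M.dtn_reg ⟨x, hx, _, M.ballR_mono (by linarith) (M.mul_mem_ballR hs h5), by
      show x * (s * _) = _
      rw [← mul_assoc, he]; group⟩ hw0.le)
    have h6 := (abs_dot_le a _).trans (mul_le_mul_of_nonneg_left
      (mul_le_mul_of_nonneg_left (M.dtn_good f L g0 g1) (Nat.cast_nonneg k)) (nm_nonneg a))
    rw [dotProduct_sub, Matrix.dotProduct_mulVec, haL, zero_dotProduct, zero_sub, abs_neg, M.chi_pow, M.chi_gen, dotProduct_smul,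
      dotProduct_single, mul_one, smul_eq_mul, abs_mul, Nat.abs_cast, ← mul_assoc, show nm a * k = A - 1 by linarith] at h6
    have h7 : (A - 1) * (2 * (ε₂ * w) + 2 * K) ≤ A * (4 * (ε₂ * w)) :=
      mul_le_mul (by linarith) (by linarith) (by positivity) hA0.le
    have h8 : A * (4 * (ε₂ * w)) * (16 * K) = |a i| * w := by rw [hε₂]; field_simp; norm_num
    have h9 : j * |a i| * (16 * K) ≤ A * (4 * (ε₂ * w)) * (16 * K) := mul_le_mul_of_nonneg_right (h6.trans h7) (by linarith)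
    have h10 : |a i| * w ≤ |a i| * (j * (8 * K)) := mul_le_mul_of_nonneg_left j1 hi.le
    have h11 : 0 < |a i| * w := by positivity
    linarith
  have h3 := (hv f p w w1).trans (mul_le_mul_right ((measure_mono hsub).trans ((measure_union_le _ _).trans
    (add_le_add (hp f p w L κ w0 hΛ hP 1) (hp f p w L κ w0 hΛ hP _)))) _)
  rw [← add_mul, ← mul_assoc, ← ENNReal.ofReal_add (by positivity) (by positivity), ← ENNReal.ofReal_mul (by linarith),
    show D * (1 / (4 * D) + 1 / (4 * D)) = 1 / 2 by field_simp; norm_num] at h3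
  have h4 : ENNReal.ofReal (1 / 2) * M.vol0 w < 1 * M.vol0 w :=
    ENNReal.mul_lt_mul_left (M.vol0_pos (by linarith)).ne' (M.vol0_lt_top w).ne (ENNReal.ofReal_lt_one.2 (by norm_num))
  rw [one_mul] at h4
  exact absurd h3 h4.not_ge

end Model

end Crest.Agent.R182
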