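import Crest.Agent.R182.CLX.Det
import Crest.Agent.R182.B.SP
import Crest.Agent.R182.ENG.Path

/-! R182/CLX/Ray (helper36): an occurring linear part permutes the rays of the roots of depth one -/

set_option autoImplicit false
set_option linter.unusedVariables false
set_option linter.unusedSectionVars false
open Set Filter Topology MeasureTheory ProbabilityTheory Matrix Crest.GroupTheory
open scoped Pointwise commutatorElement ENNReal

noncomputable section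
namespace Crest.Agent.R182

theorem cxr_Mb {k : ℕ} (L : Mat k) : ∃ Λ : ℝ, 1 ≤ Λ ∧ Mb L Λ := by
  obtain ⟨B, hB⟩ := Finite.exists_le fun z : Fin k × Fin k => |L z.1 z.2|
  exact ⟨max 1 B, le_max_left _ _, fun i j => (hB (i, j)).trans (le_max_right _ _)⟩

namespace Model
variable {h k : ℕ} (M : Model h k)

/-- words for the points of `Gv ρ` that stay low for `γ` -/
theorem cxr_word {γ : Fin k → ℝ} (hγ : γ ≠ 0) (hn : ∀ α ∈ M.R1, ¬∃ c : ℝ, 0 < c ∧ γ = c • α) : ∃ Λ : ℝ, 1 ≤ Λ ∧ ∀ ρ : ℝ, 1 ≤ ρ →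
    ∀ X ∈ M.Gv ρ, ∃ l, M.Wrd l ∧ (l.length : ℝ) ≤ Λ * ρ ∧ l.prod = M.exp X ∧ ∀ l', l' <+: l → γ ⬝ᵥ M.chi l'.prod ≤ Λ := by
  have ht : ∀ α, ∃ d : M.G, α ∈ M.R1 → (d ∈ M.C ∧ 0 < α ⬝ᵥ M.chi d) ∧ γ ⬝ᵥ M.chi d ≤ 0 := fun α => by
    by_cases hα : α ∈ M.R1
    · obtain ⟨v, h1, h2⟩ := exists_sep_ray hα.1 hγ (hn α hα)
      obtain ⟨d, hd, h3⟩ := M.exists_int_cone (s := {α, -γ}) (toFinite _) (v := v) (by
        rintro _ (rfl | rfl)
        · exact h1
        · rw [neg_dotProduct]; linarith)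
      have h4 := h3 (-γ) (by simp)
      rw [neg_dotProduct] at h4
      exact ⟨d, fun _ => ⟨⟨hd, h3 α (by simp)⟩, by linarith⟩⟩
    · exact ⟨1, fun h => absurd h hα⟩
  choose t ht using ht
  obtain ⟨Λ, hΛ, hw⟩ := M.exists_word M.R1 t fun α hα => (ht α hα).1
  obtain ⟨B, hB, hq⟩ := M.norm_Qi
  have hg := nm_nonneg γ
  have h0 : 0 ≤ nm γ * (2 * Λ) := by positivity
  have h1 : 1 ≤ Λ * B := one_le_mul_of_one_le_of_one_le hΛ hB
  refine ⟨Λ * B + nm γ * (2 * Λ), by linarith, fun ρ hρ X hX => ?_⟩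
  obtain ⟨l, a1, a2, a3, a4⟩ := hw (B * ρ) (one_le_mul_of_one_le_of_one_le hB hρ) X (M.idl_R1 ▸ M.Gv_subset_E ρ hX)
    (hq _ ρ hρ (fun Y hY => hY.2) X hX)
  refine ⟨l, a1, a2.trans (by nlinarith), a3, fun l' hl' => ?_⟩
  obtain ⟨Y, -, -, s, hs, s', hs', x, j, -, hx, he⟩ := a4 l' hl'
  have b1 : ∀ u ∈ M.ballR Λ, γ ⬝ᵥ M.chi u ≤ nm γ * Λ := fun u hu =>
    (le_abs_self _).trans ((abs_dot_le_nm _ _).trans (mul_le_mul_of_nonneg_left ((M.nm_chi_le u).trans hu) hg))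
  have b2 : γ ⬝ᵥ M.chi x ≤ 0 := by
    rcases hx with rfl | ⟨α, hα, -, rfl⟩
    · simp [M.chi_one]
    · exact (ht α hα).2
  rw [he, M.chi_mul, M.chi_mul, M.chi_mul, M.chi_exp, zero_add, M.chi_pow, dotProduct_add, dotProduct_add, dotProduct_smul, smul_eq_mul]
  have b3 := mul_nonpos_of_nonneg_of_nonpos (Nat.cast_nonneg (α := ℝ) j) b2
  linarith [b1 s hs, b1 s' hs']

theorem cx_ray {K : ℝ} {L : Mat k} (hL : ∀ t ε w₀ : ℝ, 0 < ε → ∃ (f : M.QP K) (p : M.G) (w : ℝ) (κ : Fin k → ℝ),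
    w₀ ≤ w ∧ M.PF f.φ p w L κ t ε) : ∀ β ∈ M.R1, ∃ α ∈ M.R1, ∃ c : ℝ, 0 < c ∧ β ᵥ* L = c • α := by
  intro β hβ
  by_contra hcon
  have hγ : β ᵥ* L ≠ 0 := fun h0 => M.det_ne_of_occ hL (Matrix.exists_vecMul_eq_zero_iff.1 ⟨β, hβ.1, h0⟩)
  obtain ⟨Λ₁, hΛ₁, hwd⟩ := M.cxr_word hγ fun α hα hc => hcon ⟨α, hα, hc⟩
  have hK : 1 ≤ K := (hL 1 1 0 one_pos).choose.one_le
  obtain ⟨Λ, hΛ, hb⟩ := cxr_Mb L
  obtain ⟨A⟩ := M.exists_Aff hβ
  obtain ⟨B, c, hB, hc, hsp⟩ := M.sp K A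
  obtain ⟨B₁, hB₁, him⟩ := A.norm_bb_image K 1 (by linarith) zero_le_one
  have hnb := nm_nonneg β
  obtain ⟨δ, hδ, hδ'⟩ : ∃ δ : ℝ, 0 < δ ∧ Λ₁ * δ = 1 / 2 := ⟨1 / (2 * Λ₁), by positivity, by field_simp⟩
  obtain ⟨e, he, he'⟩ : ∃ e : ℝ, 0 < e ∧ B * (2 * e) = c * δ / 2 := ⟨c * δ / (4 * B), by positivity, by field_simp; ring⟩
  obtain ⟨ε₁, h1, h1a, h1b⟩ : ∃ ε₁ : ℝ, 0 < ε₁ ∧ ε₁ ≤ 1 / 4 ∧ nm β * (k * (2 * ε₁)) ≤ e := by
    refine ⟨min (1 / 4) (e / (2 * (nm β * k + 1))), by positivity, min_le_left _ _, ?_⟩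
    have h2 := min_le_right (1 / 4) (e / (2 * (nm β * k + 1)))
    rw [le_div_iff₀ (by positivity)] at h2
    have h3 : 0 < min (1 / 4) (e / (2 * (nm β * k + 1))) := by positivity
    nlinarith
  obtain ⟨t, ε, w₁, -, hε, hp⟩ := M.path K Λ (1 / 2) ε₁ (by norm_num) h1
  obtain ⟨w₂, hw₂⟩ := eventually_atTop.1 ((bxf_poly (B₁ * Real.exp Λ₁) 1 he).and ((bxf_poly (4 * B) 0 (half_pos (mul_pos hc hδ))).and
    (eventually_ge_atTop δ⁻¹)))
  obtain ⟨f, p, w, κ, hw, hP⟩ := hL t ε (max w₁ w₂) hε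
  obtain ⟨e1, e2, e3⟩ := hw₂ w ((le_max_right _ _).trans hw)
  have hw0 : 0 < w := (inv_pos.2 hδ).trans_le e3
  have hρ : 1 ≤ δ * w := by rwa [inv_le_iff_one_le_mul₀' hδ] at e3
  have p1 := M.isProbabilityMeasure_lw_Box one_pos w
  have p2 := M.isProbabilityMeasure_lw_Gv le_rfl one_pos (δ * w)
  rw [one_smul] at p1 p2
  have hm : Measurable fun z : M.G × M.G => (f.φ (p * z.1))⁻¹ * f.φ (p * z.1 * z.2) :=
    (f.mφ.comp (measurable_fst.const_mul p)).inv.mul (f.mφ.comp ((measurable_fst.const_mul p).mul measurable_snd))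
  have hS : MeasurableSet {y : M.G | ‖A.bb y‖ ≤ Real.exp (2 * e * w) ∧ -(2 * e * w) ≤ β ⬝ᵥ M.chi y} :=
    ((isClosed_le A.continuous_bb.norm continuous_const).inter
      (isClosed_le continuous_const (continuous_const.dotProduct M.continuous_chi))).measurableSet
  have h6 := M.markov_fubini (ν := M.lw M.E (M.Box w)) (la := M.lw M.E (M.Gv (δ * w))) (hm hS).compl (b := 2⁻¹) (by simp)
    (a := ENNReal.ofReal ε₁) (by
      filter_upwards [mem_ae_iff.2 (M.lw_compl M.E (M.isCompact_Gv (δ * w)))] with x hx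
      obtain ⟨X, hX, rfl⟩ := hx
      obtain ⟨l, a1, a2, a3, a4⟩ := hwd _ hρ X hX.2
      rw [← mul_assoc, hδ'] at a2
      refine le_trans (measure_mono fun x hx => ?_) (hp f p w L κ ((le_max_left _ _).trans hw) hb hP 1
        (M.Adm_mono (by positivity) (by positivity) (M.AdmC_subset_Adm _ _ (M.be_one le_rfl))) l a1 (by nlinarith) fun l' hl' => ?_)
      · by_contra hn
        simp only [mem_ofPred_eq, not_exists, not_and, not_lt, mul_one] at hn
        have b0 := hn [] List.nil_prefix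
        rw [List.prod_nil, mul_one] at b0
        have b1 : ∀ l', l' <+: l → |β ⬝ᵥ (M.cc f.φ l'.prod (p * x) - L *ᵥ M.chi l'.prod)| ≤ e * w := fun l' hl' => by
          refine (abs_dot_le _ _).trans (le_trans ?_ (mul_le_mul_of_nonneg_right h1b hw0.le))
          rw [← M.er_sub, mul_assoc (nm β), mul_assoc (k : ℝ)]
          gcongr
          have := norm_sub_le_norm_sub_add_norm_sub (M.er f.φ L (p * x * l'.prod)) κ (M.er f.φ L (p * x))
          rw [norm_sub_rev κ] at this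
          linarith [hn l' hl']
        refine hx ⟨?_, ?_⟩
        · have b2 := him f.φ (p * x) l (Λ₁ + e * w) f.lφ (fun y hy => ?_) fun l' hl' => ?_
          · rw [a3] at b2
            refine b2.trans ?_
            rw [show 2 * e * w = e * w + e * w by ring, Real.exp_add, Real.exp_add, ← mul_assoc]
            refine mul_le_mul_of_nonneg_right (le_trans ?_ e1) (Real.exp_pos _).le
            rw [pow_one, mul_right_comm]
            exact mul_le_mul_of_nonneg_left (by linarith) (by positivity)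
          · simpa [ballR] using (Nat.cast_le (α := ℝ)).2 (Wrd.len_le (M := M) (l := [y]) fun z hz => a1 z (List.mem_singleton.1 hz ▸ hy))
          · have b3 := (le_abs_self _).trans (b1 l' hl')
            rw [dotProduct_sub, dotProduct_mulVec] at b3
            linarith [a4 l' hl']
        · have b3 := (abs_le.1 (b1 l (List.prefix_refl l))).1
          rw [a3, M.chi_exp, mulVec_zero, sub_zero, M.cc_eq] at b3
          have : 0 ≤ e * w := by positivity
          show _ ≤ β ⬝ᵥ M.chi ((f.φ (p * x))⁻¹ * f.φ (p * x * M.exp X))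
          linarith
      · have b1 := M.nm_chi_le l'.prod
        have b2 : (M.len l'.prod : ℝ) ≤ l'.length := by exact_mod_cast (a1.of_prefix hl').len_le
        have b3 : (l'.length : ℝ) ≤ l.length := by exact_mod_cast hl'.length_le
        rw [M.chi_one, zero_add]
        linarith)
  have h7 : ∀ x, 2⁻¹ < M.lw M.E (M.Gv (δ * w)) {x' | (x, x') ∈ ((fun z : M.G × M.G => (f.φ (p * z.1))⁻¹ * f.φ (p * z.1 * z.2)) ⁻¹'
      {y : M.G | ‖A.bb y‖ ≤ Real.exp (2 * e * w) ∧ -(2 * e * w) ≤ β ⬝ᵥ M.chi y})ᶜ} := fun x => by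
    have c1 := hsp f (p * x) (f.φ (p * x)) (δ * w) (2 * e * w) hρ (by positivity)
    have c2 : B * Real.exp (B * (2 * e * w) - c * (δ * w)) ≤ 4⁻¹ := by
      rw [← mul_assoc, he', show c * δ / 2 * w - c * (δ * w) = -(c * δ / 2 * w) by ring, Real.exp_neg,
        mul_inv_le_iff₀ (Real.exp_pos _)]
      linarith
    have c3 := c1.trans ((ENNReal.ofReal_le_ofReal c2).trans_eq
      (show ENNReal.ofReal 4⁻¹ = 4⁻¹ by rw [ENNReal.ofReal_inv_of_pos four_pos, ENNReal.ofReal_ofNat]))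
    by_contra hcon
    have c4 := (measure_univ_le_add_compl _).trans (add_le_add c3 (not_lt.1 hcon))
    rw [measure_univ] at c4
    exact absurd c4 (not_le.2 ((ENNReal.add_lt_add_right (by simp) (ENNReal.inv_lt_inv.2 (by norm_num))).trans_eq
      ENNReal.inv_two_add_inv_two))
  have h8 := (measure_mono (s := univ) fun x _ => h7 x).trans h6
  rw [measure_univ, div_eq_mul_inv, inv_inv, ← ENNReal.ofReal_ofNat, ← ENNReal.ofReal_mul h1.le, ENNReal.one_le_ofReal] at h8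
  linarith

end Model

end Crest.Agent.R182
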